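import Vale.Agent.P155.BD.Props2
import Vale.Agent.P155.H550.Inn
import Vale.Agent.P155.H878.Orb
import Vale.Agent.P155.K.Conn2

/-!
# P155, block BD (B5): traces of the loops in the unit disc

`trc φ ω L` is the image under the Riemann map `φ : UU T → disc` of the union of the segments
between the centres of adjacent inner faces of the loop `L`.
-/

namespace Vale.Agent.P155.BD

open Complex Metric Set Relation
open Vale.Agent.P155.T802 (Touch corners facesAt)

/-- the lattice point `v` as a complex number -/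
noncomputable def vt (v : Pt) : ℂ := (v.1 : ℂ) + (v.2 : ℂ) * I

theorem cseg_mono {S S' : Set Pt} (h : S ⊆ S') : cseg S ⊆ cseg S' := by
  rintro z ⟨f, hf, g, hg, h1, h2⟩
  exact ⟨f, h hf, g, h hg, h1, h2⟩

theorem cf_re (x : Pt) : (cf x).re = x.1 + 1 / 2 := by
  simp [cf]

theorem cf_im (x : Pt) : (cf x).im = x.2 + 1 / 2 := by
  simp [cf]

theorem vt_re (x : Pt) : (vt x).re = x.1 := by
  simp [vt]

theorem vt_im (x : Pt) : (vt x).im = x.2 := by
  simp [vt]

theorem cf_mem_cseg {S : Set Pt} {f : Pt} (hf : f ∈ S) : cf f ∈ cseg S :=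
  ⟨f, hf, f, hf, Or.inl rfl, left_mem_segment ℝ _ _⟩

/-- coordinates of a point of a segment -/
theorem seg_coord {a b z : ℂ} (h : z ∈ segment ℝ a b) : ∃ s t : ℝ, 0 ≤ s ∧ 0 ≤ t ∧ s + t = 1 ∧
    z.re = s * a.re + t * b.re ∧ z.im = s * a.im + t * b.im := by
  obtain ⟨s, t, hs, ht, hst, rfl⟩ := h
  exact ⟨s, t, hs, ht, hst, by simp, by simp⟩

theorem adj_cases' {f g : Pt} (h : Adj f g) : g = (f.1 + 1, f.2) ∨ g = (f.1 - 1, f.2) ∨
    g = (f.1, f.2 + 1) ∨ g = (f.1, f.2 - 1) := by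
  have := mem_nbrs.2 h
  simpa [nbrs] using this

/-- the squares meeting the open box of radius `1/2` around a point of the segment between two
adjacent centres -/
theorem sqr_of_near {f g k : Pt} (h : f = g ∨ Adj f g) {z y : ℂ}
    (hz : z ∈ segment ℝ (cf f) (cf g)) (hy1 : |y.re - z.re| < 1 / 2) (hy2 : |y.im - z.im| < 1 / 2)
    (hk : y ∈ sqr 1 0 k) : k = f ∨ k = g := by
  rw [KConn.mem_sqr one_pos] at hk
  simp only [KConn.gx, KConn.gy, Complex.zero_re, Complex.zero_im, sub_zero, div_one] at hk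
  obtain ⟨k1, k2, k3, k4⟩ := hk
  obtain ⟨s, t, hs, ht, hst, h1, h2⟩ := seg_coord hz
  rw [cf_re, cf_re] at h1
  rw [cf_im, cf_im] at h2
  rw [abs_lt] at hy1 hy2
  obtain ⟨p1, p2⟩ := hy1
  obtain ⟨p3, p4⟩ := hy2
  have hs' : s = 1 - t := by linarith
  subst hs'
  have hint : ∀ a b : ℤ, (a : ℝ) < b + 1 → (b : ℝ) < a + 1 → a = b := by
    intro a b h3 h4
    have h5 : a < b + 1 := by exact_mod_cast h3
    have h6 : b < a + 1 := by exact_mod_cast h4
    omega
  have hint2 : ∀ a b : ℤ, (a : ℝ) < b + 2 → (b : ℝ) < a + 1 → a = b ∨ a = b + 1 := by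
    intro a b h3 h4
    have h5 : a < b + 2 := by exact_mod_cast h3
    have h6 : b < a + 1 := by exact_mod_cast h4
    omega
  rcases h with rfl | h
  · left
    have e1 : z.re = f.1 + 1 / 2 := by rw [h1]; ring
    have e2 : z.im = f.2 + 1 / 2 := by rw [h2]; ring
    exact Prod.ext (hint _ _ (by linarith) (by linarith)) (hint _ _ (by linarith) (by linarith))
  · rcases adj_cases' h with rfl | rfl | rfl | rfl
    · have e2 : z.im = f.2 + 1 / 2 := by rw [h2]; ring
      have e1 : z.re = f.1 + 1 / 2 + t := by rw [h1]; push_cast; ring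
      have a2 := hint k.2 f.2 (by linarith) (by linarith)
      rcases hint2 k.1 f.1 (by linarith) (by linarith) with a1 | a1
      · left; exact Prod.ext a1 a2
      · right; exact Prod.ext a1 a2
    · have e2 : z.im = f.2 + 1 / 2 := by rw [h2]; ring
      have e1 : z.re = f.1 + 1 / 2 - t := by rw [h1]; push_cast; ring
      have a2 := hint k.2 f.2 (by linarith) (by linarith)
      rcases hint2 k.1 (f.1 - 1) (by push_cast; linarith) (by push_cast; linarith) with a1 | a1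
      · right; exact Prod.ext a1 a2
      · left; exact Prod.ext (by omega) a2
    · have e2 : z.im = f.2 + 1 / 2 + t := by rw [h2]; push_cast; ring
      have e1 : z.re = f.1 + 1 / 2 := by rw [h1]; ring
      have a1 := hint k.1 f.1 (by linarith) (by linarith)
      rcases hint2 k.2 f.2 (by linarith) (by linarith) with a2 | a2
      · left; exact Prod.ext a1 a2
      · right; exact Prod.ext a1 a2
    · have e2 : z.im = f.2 + 1 / 2 - t := by rw [h2]; push_cast; ring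
      have e1 : z.re = f.1 + 1 / 2 := by rw [h1]; ring
      have a1 := hint k.1 f.1 (by linarith) (by linarith)
      rcases hint2 k.2 (f.2 - 1) (by push_cast; linarith) (by push_cast; linarith) with a2 | a2
      · right; exact Prod.ext a1 a2
      · left; exact Prod.ext a1 (by omega)

theorem mem_UU_of_near {T : Temp} {f g : Pt} (hf : f ∈ T.faceSet) (hg : g ∈ T.faceSet)
    (h : f = g ∨ Adj f g) {z y : ℂ} (hz : z ∈ segment ℝ (cf f) (cf g)) (hy : ‖y - z‖ < 1 / 2) :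
    y ∈ UU T := by
  refine KConn.mem_interior_region one_pos ?_
  intro k hk
  have h1 := Complex.abs_re_le_norm (y - z)
  have h2 := Complex.abs_im_le_norm (y - z)
  rw [Complex.sub_re] at h1
  rw [Complex.sub_im] at h2
  rcases sqr_of_near h hz (h1.trans_lt hy) (h2.trans_lt hy) hk with rfl | rfl
  · exact hf
  · exact hg

theorem compl_UU_nonempty (T : Temp) : (UU T)ᶜ.Nonempty := by
  by_contra hne
  rw [Set.not_nonempty_iff_eq_empty, Set.compl_empty_iff] at hne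
  have h1 : IsCompact (region 1 0 T.faceSet) := KConn.isCompact_region one_pos (A1.faceSet_finite T)
  have h2 : region 1 0 T.faceSet = Set.univ := by
    rw [Set.eq_univ_iff_forall]
    intro z
    have : z ∈ UU T := by rw [hne]; trivial
    exact interior_subset this
  rw [h2] at h1
  exact NoncompactSpace.noncompact_univ h1

/-- points of the segments are at distance `≥ 1/2` from the boundary -/
theorem half_le_dU {T : Temp} {z : ℂ} (hz : z ∈ cseg T.faceSet) : 1 / 2 ≤ dU T z := by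
  obtain ⟨f, hf, g, hg, h1, h2⟩ := hz
  unfold dU
  rw [le_infDist (compl_UU_nonempty T)]
  intro y hy
  by_contra hlt
  push Not at hlt
  apply hy
  apply mem_UU_of_near hf hg h1 h2
  rw [← dist_eq_norm, dist_comm]
  exact hlt

theorem cseg_sub_UU {T : Temp} {S : Set Pt} (hS : S ⊆ T.faceSet) : cseg S ⊆ UU T := by
  rintro z ⟨f, hf, g, hg, h1, h2⟩
  exact mem_UU_of_near (hS hf) (hS hg) h1 h2 (by rw [sub_self, norm_zero]; norm_num)

/-- adjacent centres are at distance one -/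
theorem norm_cf_sub {f g : Pt} (h : f = g ∨ Adj f g) : ‖cf f - cf g‖ ≤ 1 := by
  rcases h with rfl | h
  · simp
  · rcases adj_cases' h with rfl | rfl | rfl | rfl
    · have : cf f - cf (f.1 + 1, f.2) = -1 := by
        apply Complex.ext <;> simp [cf_re, cf_im]
      rw [this]; simp
    · have : cf f - cf (f.1 - 1, f.2) = 1 := by
        apply Complex.ext <;> simp [cf_re, cf_im]
      rw [this]; simp
    · have : cf f - cf (f.1, f.2 + 1) = -I := by
        apply Complex.ext <;> simp [cf_re, cf_im]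
      rw [this]; simp
    · have : cf f - cf (f.1, f.2 - 1) = I := by
        apply Complex.ext <;> simp [cf_re, cf_im]
      rw [this]; simp

theorem norm_sub_of_seg {a b z : ℂ} (h : z ∈ segment ℝ a b) : ‖z - a‖ ≤ ‖a - b‖ := by
  obtain ⟨s, t, hs, ht, hst, rfl⟩ := h
  have : s • a + t • b - a = t • (b - a) := by
    have : s = 1 - t := by linarith
    subst this
    simp only [sub_smul, one_smul, smul_sub]
    ring
  rw [this, norm_smul, Real.norm_of_nonneg ht, norm_sub_rev b a]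
  have : t ≤ 1 := by linarith
  calc t * ‖a - b‖ ≤ 1 * ‖a - b‖ := mul_le_mul_of_nonneg_right this (norm_nonneg _)
    _ = _ := one_mul _

theorem near_of_cseg {S : Set Pt} {z : ℂ} (h : z ∈ cseg S) : ∃ f ∈ S, ‖z - cf f‖ ≤ 1 := by
  obtain ⟨f, hf, g, hg, h1, h2⟩ := h
  exact ⟨f, hf, (norm_sub_of_seg h2).trans (norm_cf_sub h1)⟩

/-- the centre of a face is near its corners -/
theorem norm_cf_vt {f v : Pt} (h : f ∈ facesAt v) : ‖cf f - vt v‖ ≤ 1 := by
  have h1 : |(cf f - vt v).re| ≤ 1 / 2 ∧ |(cf f - vt v).im| ≤ 1 / 2 := by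
    simp only [facesAt, Finset.mem_insert, Finset.mem_singleton] at h
    simp only [Complex.sub_re, Complex.sub_im, cf_re, cf_im, vt_re, vt_im]
    rcases h with rfl | rfl | rfl | rfl <;> simp only <;> push_cast <;> constructor <;>
      rw [abs_le] <;> constructor <;> linarith
  exact (Complex.norm_le_abs_re_add_abs_im _).trans (by linarith [h1.1, h1.2])

theorem cseg_preconn {S : Set Pt} (h : ∀ f ∈ S, ∀ g ∈ S, H550.Ch S f g) :
    IsPreconnected (cseg S) := by
  have hseg : ∀ f g : Pt, IsPreconnected (segment ℝ (cf f) (cf g)) := fun f g =>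
    (convex_segment _ _).isPreconnected
  have key : ∀ f g : Pt, f ∈ S → H550.Ch S f g →
      ∃ t ⊆ cseg S, cf f ∈ t ∧ cf g ∈ t ∧ IsPreconnected t := by
    intro f g hf hfg
    unfold H550.Ch at hfg
    induction hfg with
    | refl =>
      refine ⟨{cf f}, ?_, rfl, rfl, isPreconnected_singleton⟩
      rintro _ rfl
      exact cf_mem_cseg hf
    | @tail b c _ hs ih =>
      obtain ⟨t, ht, h1, h2, h3⟩ := ih
      refine ⟨t ∪ segment ℝ (cf b) (cf c), ?_, Or.inl h1, Or.inr (right_mem_segment ℝ _ _), ?_⟩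
      · apply Set.union_subset ht
        intro z hz
        exact ⟨b, hs.2.1, c, hs.2.2, Or.inr hs.1, hz⟩
      · exact h3.union (cf b) h2 (left_mem_segment ℝ _ _) (hseg b c)
  rcases S.eq_empty_or_nonempty with rfl | ⟨f0, hf0⟩
  · have : cseg ∅ = ∅ := by
      ext z; simp [cseg]
    rw [this]
    exact isPreconnected_empty
  · refine isPreconnected_of_forall (cf f0) ?_
    rintro z ⟨f, hf, g, hg, h1, h2⟩
    obtain ⟨t, ht, h3, h4, h5⟩ := key f0 f hf0 (h f0 hf0 f hf)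
    refine ⟨t ∪ segment ℝ (cf f) (cf g), ?_, Or.inl h3, Or.inr h2, ?_⟩
    · apply Set.union_subset ht
      intro z hz
      exact ⟨f, hf, g, hg, h1, hz⟩
    · exact h5.union (cf f) h4 (left_mem_segment ℝ _ _) (hseg f g)

theorem inn_of_inner {ω : Conf} {v : Pt} {m : ℕ} {f : Pt}
    (h : f ∈ H550.Inner ω (comp ω v) v m) : Inn ω (comp ω v) f := by
  obtain ⟨h1, j, _, h2⟩ := h
  refine ⟨h1, (SW.suc ω)^[j] v, T802.mem_facesAt.1 h2, ?_⟩
  exact SW.same_iter ω v j

theorem inner_mono {ω : Conf} {A : Set Pt} {v : Pt} {m m' : ℕ} (h : m ≤ m') :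
    H550.Inner ω A v m ⊆ H550.Inner ω A v m' := by
  rintro f ⟨h1, j, hj, h2⟩
  exact ⟨h1, j, hj.trans h, h2⟩

/-- the inner faces of a loop are connected -/
theorem inn_conn {V : Finset Pt} {ω : Conf} (hω : ω ∈ DD V) {A : Set Pt} (hA : A ∈ Loops ω)
    {f g : Pt} (hf : Inn ω A f) (hg : Inn ω A g) : H550.Ch {x | Inn ω A x} f g := by
  obtain ⟨sf, u, hu, huA⟩ := hf
  obtain ⟨sg, w, hw, hwA⟩ := hg
  have hAu : A = comp ω u := (L.loop_eq_comp hω hA huA)
  subst hAu
  have huV : u ∈ V := L.loop_subset hω hA huA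
  obtain ⟨j, _, hj⟩ := Q1.exists_iter hω huV hwA
  have h1 : f ∈ H550.Inner ω (comp ω u) u j := ⟨sf, 0, by omega, T802.mem_facesAt.2 hu⟩
  have h2 : g ∈ H550.Inner ω (comp ω u) u j := ⟨sg, j, le_rfl, by
    rw [hj]; exact T802.mem_facesAt.2 hw⟩
  exact (H550.inner_conn hω hA huA j h1 h2).mono (fun x hx => inn_of_inner hx)

theorem inn_sub {T : Temp} {ω : Conf} (hω : ω ∈ DD T.V) {A : Set Pt} (hA : A ∈ Loops ω) :
    {x | Inn ω A x} ⊆ T.faceSet := fun _ hx => A1.L_in hω hA hx.1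

theorem RM.cont {T : Temp} {f φ : ℂ → ℂ} (h : RM T f φ) : ContinuousOn φ (UU T) :=
  h.hφ.continuousOn

theorem isCompact_cseg {S : Set Pt} (hS : S.Finite) : IsCompact (cseg S) := by
  have : cseg S = ⋃ p ∈ {p : Pt × Pt | p.1 ∈ S ∧ p.2 ∈ S ∧ (p.1 = p.2 ∨ Adj p.1 p.2)},
      segment ℝ (cf p.1) (cf p.2) := by
    ext z
    constructor
    · rintro ⟨f, hf, g, hg, h1, h2⟩
      exact Set.mem_iUnion₂.2 ⟨(f, g), ⟨hf, hg, h1⟩, h2⟩
    · intro hz
      obtain ⟨p, ⟨hf, hg, h1⟩, h2⟩ := Set.mem_iUnion₂.1 hz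
      exact ⟨p.1, hf, p.2, hg, h1, h2⟩
  rw [this]
  have hfin : {p : Pt × Pt | p.1 ∈ S ∧ p.2 ∈ S ∧ (p.1 = p.2 ∨ Adj p.1 p.2)}.Finite :=
    (hS.prod hS).subset (fun p hp => ⟨hp.1, hp.2.1⟩)
  refine hfin.isCompact_biUnion fun p _ => ?_
  rw [segment_eq_image]
  exact isCompact_Icc.image (by fun_prop)

/-- the traces stay away from the unit circle -/
theorem exists_deep {T : Temp} {f φ : ℂ → ℂ} (h : RM T f φ) :
    ∃ N0 : ℕ, ∀ z ∈ cseg T.faceSet, (1 / 2 : ℝ) ^ N0 ≤ 1 - ‖φ z‖ := by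
  rcases (cseg T.faceSet).eq_empty_or_nonempty with h0 | h0
  · exact ⟨0, fun z hz => by rw [h0] at hz; exact absurd hz (Set.notMem_empty z)⟩
  have hK := isCompact_cseg (A1.faceSet_finite T)
  have hsub : cseg T.faceSet ⊆ UU T := cseg_sub_UU Set.Subset.rfl
  have hc : ContinuousOn (fun z => ‖φ z‖) (cseg T.faceSet) := (h.cont.mono hsub).norm
  obtain ⟨z0, hz0, hmax⟩ := hK.exists_isMaxOn h0 hc
  have hlt : ‖φ z0‖ < 1 := by
    have := h.maps' z0 (hsub hz0)
    simpa using this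
  obtain ⟨N0, hN0⟩ := exists_pow_lt_of_lt_one (sub_pos.2 hlt) (by norm_num : (1 / 2 : ℝ) < 1)
  refine ⟨N0, fun z hz => ?_⟩
  have : ‖φ z‖ ≤ ‖φ z0‖ := hmax hz
  linarith

/-- **(B5) `TrOK`** -/
theorem trOK {T : Temp} {f φ : ℂ → ℂ} (h : RM T f φ) :
    ∃ N0 : ℕ, ∀ N, N0 ≤ N → T733.TrOK T.V (trc φ) N := by
  obtain ⟨N0, hN0⟩ := exists_deep h
  refine ⟨N0, fun N hN => ⟨?_, ?_⟩⟩
  · intro ω hω L hL
    refine (cseg_preconn fun a ha b hb => inn_conn hω hL ha hb).image _ ?_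
    exact h.cont.mono (cseg_sub_UU (inn_sub hω hL))
  · rintro ω hω L hL _ ⟨z, hz, rfl⟩
    have h1 := hN0 z (cseg_mono (inn_sub hω hL) hz)
    have h2 : (1 / 2 : ℝ) ^ N ≤ (1 / 2) ^ N0 :=
      pow_le_pow_of_le_one (by norm_num) (by norm_num) hN
    linarith

/-- a point of the trace comes from a point of the polygon near the centre of an inner face -/
theorem mem_trc {T : Temp} {φ : ℂ → ℂ} {ω : Conf} (hω : ω ∈ DD T.V) {L : Set Pt}
    (hL : L ∈ Loops ω) {w : ℂ} (hw : w ∈ trc φ ω L) :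
    ∃ z ∈ UU T, φ z = w ∧ ∃ x, Inn ω L x ∧ ‖z - cf x‖ ≤ 1 := by
  obtain ⟨z, hz, rfl⟩ := hw
  obtain ⟨x, hx, h1⟩ := near_of_cseg hz
  exact ⟨z, cseg_sub_UU (inn_sub hω hL) hz, rfl, x, hx, h1⟩

/-- **(B5) the sub-trace of a strand** -/
theorem strand_trace {T : Temp} {f φ : ℂ → ℂ} (h : RM T f φ) {ω : Conf} (hω : ω ∈ DD T.V)
    {v : Pt} (hv : ω.1 v ≠ ω.2 v) (m : ℕ) : ∃ G : Set ℂ, G ⊆ cseg T.faceSet ∧
      φ '' G ⊆ trc φ ω (comp ω v) ∧ IsPreconnected G ∧ IsPreconnected (φ '' G) ∧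
      (∀ z ∈ G, ∃ j ≤ m, ‖z - vt ((SW.suc ω)^[j] v)‖ ≤ 2) ∧
      ∀ j ≤ m, ∃ z ∈ G, ‖z - vt ((SW.suc ω)^[j] v)‖ ≤ 1 := by
  have hA : comp ω v ∈ Loops ω := ⟨v, hv, rfl⟩
  have hvA : v ∈ comp ω v := L.same_refl ω v
  have hsub : H550.Inner ω (comp ω v) v m ⊆ {x | Inn ω (comp ω v) x} :=
    fun x hx => inn_of_inner hx
  have hpre : IsPreconnected (cseg (H550.Inner ω (comp ω v) v m)) :=
    cseg_preconn fun a ha b hb => H550.inner_conn hω hA hvA m ha hb
  have hfs : cseg (H550.Inner ω (comp ω v) v m) ⊆ cseg T.faceSet :=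
    cseg_mono (hsub.trans (inn_sub hω hA))
  refine ⟨cseg (H550.Inner ω (comp ω v) v m), hfs, Set.image_mono (cseg_mono hsub), hpre, ?_, ?_, ?_⟩
  · exact hpre.image _ (h.cont.mono (hfs.trans (cseg_sub_UU Set.Subset.rfl)))
  · intro z hz
    obtain ⟨x, ⟨-, j, hj, hx⟩, h1⟩ := near_of_cseg hz
    refine ⟨j, hj, ?_⟩
    have h2 := norm_cf_vt hx
    calc ‖z - vt ((SW.suc ω)^[j] v)‖ = ‖(z - cf x) + (cf x - vt ((SW.suc ω)^[j] v))‖ := by ring_nf
      _ ≤ ‖z - cf x‖ + ‖cf x - vt ((SW.suc ω)^[j] v)‖ := norm_add_le _ _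
      _ ≤ 2 := by linarith
  · intro j hj
    have hjA : (SW.suc ω)^[j] v ∈ comp ω v := SW.same_iter ω v j
    obtain ⟨x, hx1, hx2⟩ := H550.exists_at hω hA hjA
    exact ⟨cf x, cf_mem_cseg ⟨hx2, j, hj, hx1⟩, norm_cf_vt hx1⟩

theorem vt_eq (v : Pt) : Q1.pt 1 0 v = vt v := by
  simp [Q1.pt, vt]

/-- **TRC** -/
theorem trc_ok : TRC := fun _ _ _ h => trOK h

/-- **STRC** -/
theorem strc : STRC := by
  intro T f φ h ω hω v hv m
  refine ⟨⟨v, hv, rfl⟩, ?_⟩
  have hA : comp ω v ∈ Loops ω := ⟨v, hv, rfl⟩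
  have hvA : v ∈ comp ω v := L.same_refl ω v
  have hsub : H550.Inner ω (comp ω v) v m ⊆ {x | Inn ω (comp ω v) x} :=
    fun x hx => inn_of_inner hx
  have hfs : cseg (H550.Inner ω (comp ω v) v m) ⊆ cseg T.faceSet :=
    cseg_mono (hsub.trans (inn_sub hω hA))
  refine ⟨φ '' cseg (H550.Inner ω (comp ω v) v m), Set.image_mono (cseg_mono hsub), ?_, ?_, ?_⟩
  · have hpre : IsPreconnected (cseg (H550.Inner ω (comp ω v) v m)) :=
      cseg_preconn fun a ha b hb => H550.inner_conn hω hA hvA m ha hb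
    exact hpre.image _ (h.cont.mono (hfs.trans (cseg_sub_UU Set.Subset.rfl)))
  · rintro _ ⟨z, hz, rfl⟩
    refine ⟨z, cseg_sub_UU Set.Subset.rfl (hfs hz), rfl, ?_⟩
    obtain ⟨x, ⟨-, j, hj, hx⟩, h6⟩ := near_of_cseg hz
    refine ⟨j, hj, ?_⟩
    rw [vt_eq, dist_eq_norm]
    have h7 := norm_cf_vt hx
    calc ‖z - vt ((SW.suc ω)^[j] v)‖ = ‖(z - cf x) + (cf x - vt ((SW.suc ω)^[j] v))‖ := by ring_nf
      _ ≤ ‖z - cf x‖ + ‖cf x - vt ((SW.suc ω)^[j] v)‖ := norm_add_le _ _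
      _ ≤ 2 := by linarith
  · intro j hj
    have hjA : (SW.suc ω)^[j] v ∈ comp ω v := SW.same_iter ω v j
    obtain ⟨x, hx1, hx2⟩ := H550.exists_at hω hA hjA
    have hxI : x ∈ H550.Inner ω (comp ω v) v m := ⟨hx2, j, hj, hx1⟩
    refine ⟨x, inn_sub hω hA (hsub hxI), ?_, ⟨cf x, cf_mem_cseg hxI, rfl⟩, ?_⟩
    · exact cseg_sub_UU Set.Subset.rfl (hfs (cf_mem_cseg hxI))
    · rw [vt_eq, dist_eq_norm]
      exact norm_cf_vt hx1

/-- every point of the trace is at bounded hyperbolic distance from an inner face -/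
theorem visW_of_mem (hSP : SP) {T : Temp} {f φ : ℂ → ℂ} (h : RM T f φ) {ω : Conf}
    (hω : ω ∈ DD T.V) {L : Set Pt} (hL : L ∈ Loops ω) {w : ℂ} (hw : w ∈ trc φ ω L) :
    VisW φ 16 ω L w := by
  obtain ⟨z, hz, rfl⟩ := hw
  have hzT : z ∈ cseg T.faceSet := cseg_mono (inn_sub hω hL) hz
  obtain ⟨a, ha, b, hb, h1, h2⟩ := hz
  -- the nearest end
  have hkey : ∃ x, Inn ω L x ∧ z ∈ segment ℝ (cf a) (cf b) ∧ ‖z - cf x‖ ≤ 1 / 2 := by
    obtain ⟨s, t, hs, ht, hst, he⟩ := h2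
    have hab := norm_cf_sub h1
    rcases le_total t (1 / 2) with h3 | h3
    · refine ⟨a, ha, ⟨s, t, hs, ht, hst, he⟩, ?_⟩
      have e : z - cf a = t • (cf b - cf a) := by
        have : s = 1 - t := by linarith
        subst this
        rw [← he]
        simp only [sub_smul, one_smul, smul_sub]
        ring
      rw [e, norm_smul, Real.norm_of_nonneg ht, norm_sub_rev]
      nlinarith [norm_nonneg (cf a - cf b)]
    · refine ⟨b, hb, ⟨s, t, hs, ht, hst, he⟩, ?_⟩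
      have e : z - cf b = s • (cf a - cf b) := by
        have : t = 1 - s := by linarith
        subst this
        rw [← he]
        simp only [sub_smul, one_smul, smul_sub]
        ring
      rw [e, norm_smul, Real.norm_of_nonneg hs]
      have : s ≤ 1 / 2 := by linarith
      nlinarith [norm_nonneg (cf a - cf b)]
  obtain ⟨x, hx, -, hzx⟩ := hkey
  refine ⟨x, hx, ?_⟩
  have hxT : x ∈ T.faceSet := inn_sub hω hL hx
  have hxc : cf x ∈ cseg T.faceSet := cf_mem_cseg hxT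
  have hzU : z ∈ UU T := cseg_sub_UU Set.Subset.rfl hzT
  have hxU : cf x ∈ UU T := cseg_sub_UU Set.Subset.rfl hxc
  set y : ℂ := (cf x + z) / 2 with hy
  have n1 : ‖cf x - y‖ ≤ 1 / 4 := by
    have : cf x - y = (1 / 2 : ℝ) • (cf x - z) := by
      rw [hy, Complex.real_smul]; push_cast; ring
    rw [this, norm_smul, Real.norm_of_nonneg (by norm_num), norm_sub_rev]
    linarith
  have n2 : ‖z - y‖ ≤ 1 / 4 := by
    have : z - y = (1 / 2 : ℝ) • (z - cf x) := by
      rw [hy, Complex.real_smul]; push_cast; ring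
    rw [this, norm_smul, Real.norm_of_nonneg (by norm_num)]
    linarith
  have e1 := hSP T f φ h (cf x) hxU y (by linarith [half_le_dU hxc])
  have e2 := hSP T f φ h z hzU y (by linarith [half_le_dU hzT])
  have hyU : y ∈ UU T := by
    refine mem_UU_of_near hxT hxT (Or.inl rfl) (left_mem_segment ℝ _ _) ?_
    rw [norm_sub_rev]
    linarith
  have b1 : ‖φ (cf x)‖ < 1 := by simpa using h.maps' _ hxU
  have b2 : ‖φ y‖ < 1 := by simpa using h.maps' _ hyU
  have b3 : ‖φ z‖ < 1 := by simpa using h.maps' _ hzU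
  have e3 := HH_tri b1 b2 b3
  rw [HH_comm] at e2
  have p1 := one_le_HH b1 b2
  have p2 := one_le_HH b2 b3
  calc HH (φ (cf x)) (φ z) ≤ 4 * HH (φ (cf x)) (φ y) * HH (φ y) (φ z) := e3
    _ ≤ 4 * 2 * 2 := by gcongr
    _ = 16 := by norm_num

end Vale.Agent.P155.BD
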